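import Vale.Agent.P062.Cert.Table

namespace Vale.Agent.P062.Cert

theorem check0 : checkRange table 0 512 = true := by
  decide +kernel

theorem check512 : checkRange table 512 512 = true := by
  decide +kernel

theorem check1024 : checkRange table 1024 512 = true := by
  decide +kernel

theorem check1536 : checkRange table 1536 512 = true := by
  decide +kernel

theorem check2048 : checkRange table 2048 512 = true := by
  decide +kernel

theorem check2560 : checkRange table 2560 512 = true := by
  decide +kernel

theorem check3072 : checkRange table 3072 512 = true := by
  decide +kernel

theorem check3584 : checkRange table 3584 512 = true := by
  decide +kernel

theorem check4096 : checkRange table 4096 512 = true := by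
  decide +kernel

theorem check4608 : checkRange table 4608 512 = true := by
  decide +kernel

theorem check5120 : checkRange table 5120 512 = true := by
  decide +kernel

theorem check5632 : checkRange table 5632 512 = true := by
  decide +kernel

theorem check6144 : checkRange table 6144 512 = true := by
  decide +kernel

theorem check6656 : checkRange table 6656 512 = true := by
  decide +kernel

theorem check7168 : checkRange table 7168 512 = true := by
  decide +kernel

theorem check7680 : checkRange table 7680 512 = true := by
  decide +kernel


end Vale.Agent.P062.Cert
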