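import Vale.Agent.P062.Cert.Table

namespace Vale.Agent.P062.Cert

theorem check8192 : checkRange table 8192 512 = true := by
  decide +kernel

theorem check8704 : checkRange table 8704 512 = true := by
  decide +kernel

theorem check9216 : checkRange table 9216 512 = true := by
  decide +kernel

theorem check9728 : checkRange table 9728 512 = true := by
  decide +kernel

theorem check10240 : checkRange table 10240 512 = true := by
  decide +kernel

theorem check10752 : checkRange table 10752 512 = true := by
  decide +kernel

theorem check11264 : checkRange table 11264 512 = true := by
  decide +kernel

theorem check11776 : checkRange table 11776 512 = true := by
  decide +kernel

theorem check12288 : checkRange table 12288 512 = true := by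
  decide +kernel

theorem check12800 : checkRange table 12800 512 = true := by
  decide +kernel

theorem check13312 : checkRange table 13312 512 = true := by
  decide +kernel

theorem check13824 : checkRange table 13824 512 = true := by
  decide +kernel

theorem check14336 : checkRange table 14336 512 = true := by
  decide +kernel

theorem check14848 : checkRange table 14848 512 = true := by
  decide +kernel

theorem check15360 : checkRange table 15360 512 = true := by
  decide +kernel

theorem check15872 : checkRange table 15872 512 = true := by
  decide +kernel


end Vale.Agent.P062.Cert
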