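import Vale.Agent.P062.Cert.Table

namespace Vale.Agent.P062.Cert

theorem check16384 : checkRange table 16384 512 = true := by
  decide +kernel

theorem check16896 : checkRange table 16896 512 = true := by
  decide +kernel

theorem check17408 : checkRange table 17408 512 = true := by
  decide +kernel

theorem check17920 : checkRange table 17920 512 = true := by
  decide +kernel

theorem check18432 : checkRange table 18432 512 = true := by
  decide +kernel

theorem check18944 : checkRange table 18944 512 = true := by
  decide +kernel

theorem check19456 : checkRange table 19456 512 = true := by
  decide +kernel

theorem check19968 : checkRange table 19968 512 = true := by
  decide +kernel

theorem check20480 : checkRange table 20480 512 = true := by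
  decide +kernel

theorem check20992 : checkRange table 20992 512 = true := by
  decide +kernel

theorem check21504 : checkRange table 21504 512 = true := by
  decide +kernel

theorem check22016 : checkRange table 22016 512 = true := by
  decide +kernel

theorem check22528 : checkRange table 22528 512 = true := by
  decide +kernel

theorem check23040 : checkRange table 23040 512 = true := by
  decide +kernel

theorem check23552 : checkRange table 23552 512 = true := by
  decide +kernel

theorem check24064 : checkRange table 24064 512 = true := by
  decide +kernel


end Vale.Agent.P062.Cert
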