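import Vale.Agent.P062.Cert.Table

namespace Vale.Agent.P062.Cert

theorem check24576 : checkRange table 24576 512 = true := by
  decide +kernel

theorem check25088 : checkRange table 25088 512 = true := by
  decide +kernel

theorem check25600 : checkRange table 25600 512 = true := by
  decide +kernel

theorem check26112 : checkRange table 26112 512 = true := by
  decide +kernel

theorem check26624 : checkRange table 26624 512 = true := by
  decide +kernel

theorem check27136 : checkRange table 27136 512 = true := by
  decide +kernel

theorem check27648 : checkRange table 27648 512 = true := by
  decide +kernel

theorem check28160 : checkRange table 28160 512 = true := by
  decide +kernel

theorem check28672 : checkRange table 28672 512 = true := by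
  decide +kernel

theorem check29184 : checkRange table 29184 512 = true := by
  decide +kernel

theorem check29696 : checkRange table 29696 512 = true := by
  decide +kernel

theorem check30208 : checkRange table 30208 512 = true := by
  decide +kernel

theorem check30720 : checkRange table 30720 512 = true := by
  decide +kernel

theorem check31232 : checkRange table 31232 512 = true := by
  decide +kernel

theorem check31744 : checkRange table 31744 512 = true := by
  decide +kernel

theorem check32256 : checkRange table 32256 512 = true := by
  decide +kernel


end Vale.Agent.P062.Cert
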