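import Vale.Agent.P062.Cert.Table

namespace Vale.Agent.P062.Cert

theorem check32768 : checkRange table 32768 512 = true := by
  decide +kernel

theorem check33280 : checkRange table 33280 512 = true := by
  decide +kernel

theorem check33792 : checkRange table 33792 512 = true := by
  decide +kernel

theorem check34304 : checkRange table 34304 512 = true := by
  decide +kernel

theorem check34816 : checkRange table 34816 512 = true := by
  decide +kernel

theorem check35328 : checkRange table 35328 512 = true := by
  decide +kernel

theorem check35840 : checkRange table 35840 512 = true := by
  decide +kernel

theorem check36352 : checkRange table 36352 512 = true := by
  decide +kernel

theorem check36864 : checkRange table 36864 512 = true := by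
  decide +kernel

theorem check37376 : checkRange table 37376 512 = true := by
  decide +kernel

theorem check37888 : checkRange table 37888 512 = true := by
  decide +kernel

theorem check38400 : checkRange table 38400 512 = true := by
  decide +kernel

theorem check38912 : checkRange table 38912 512 = true := by
  decide +kernel

theorem check39424 : checkRange table 39424 512 = true := by
  decide +kernel

theorem check39936 : checkRange table 39936 512 = true := by
  decide +kernel

theorem check40448 : checkRange table 40448 512 = true := by
  decide +kernel


end Vale.Agent.P062.Cert
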