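import Vale.Agent.P062.Cert.Table

namespace Vale.Agent.P062.Cert

theorem check40960 : checkRange table 40960 512 = true := by
  decide +kernel

theorem check41472 : checkRange table 41472 512 = true := by
  decide +kernel

theorem check41984 : checkRange table 41984 512 = true := by
  decide +kernel

theorem check42496 : checkRange table 42496 512 = true := by
  decide +kernel

theorem check43008 : checkRange table 43008 512 = true := by
  decide +kernel

theorem check43520 : checkRange table 43520 512 = true := by
  decide +kernel

theorem check44032 : checkRange table 44032 512 = true := by
  decide +kernel

theorem check44544 : checkRange table 44544 512 = true := by
  decide +kernel

theorem check45056 : checkRange table 45056 512 = true := by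
  decide +kernel

theorem check45568 : checkRange table 45568 512 = true := by
  decide +kernel

theorem check46080 : checkRange table 46080 512 = true := by
  decide +kernel

theorem check46592 : checkRange table 46592 512 = true := by
  decide +kernel

theorem check47104 : checkRange table 47104 512 = true := by
  decide +kernel

theorem check47616 : checkRange table 47616 512 = true := by
  decide +kernel

theorem check48128 : checkRange table 48128 512 = true := by
  decide +kernel

theorem check48640 : checkRange table 48640 512 = true := by
  decide +kernel


end Vale.Agent.P062.Cert
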