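import Vale.Agent.P062.Cert.Table

namespace Vale.Agent.P062.Cert

theorem check49152 : checkRange table 49152 512 = true := by
  decide +kernel

theorem check49664 : checkRange table 49664 512 = true := by
  decide +kernel

theorem check50176 : checkRange table 50176 512 = true := by
  decide +kernel

theorem check50688 : checkRange table 50688 512 = true := by
  decide +kernel

theorem check51200 : checkRange table 51200 512 = true := by
  decide +kernel

theorem check51712 : checkRange table 51712 512 = true := by
  decide +kernel

theorem check52224 : checkRange table 52224 512 = true := by
  decide +kernel

theorem check52736 : checkRange table 52736 512 = true := by
  decide +kernel

theorem check53248 : checkRange table 53248 512 = true := by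
  decide +kernel

theorem check53760 : checkRange table 53760 512 = true := by
  decide +kernel

theorem check54272 : checkRange table 54272 512 = true := by
  decide +kernel

theorem check54784 : checkRange table 54784 512 = true := by
  decide +kernel

theorem check55296 : checkRange table 55296 512 = true := by
  decide +kernel

theorem check55808 : checkRange table 55808 512 = true := by
  decide +kernel

theorem check56320 : checkRange table 56320 512 = true := by
  decide +kernel

theorem check56832 : checkRange table 56832 512 = true := by
  decide +kernel


end Vale.Agent.P062.Cert
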