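import Vale.Agent.P062.Cert.Table

namespace Vale.Agent.P062.Cert

theorem check57344 : checkRange table 57344 512 = true := by
  decide +kernel

theorem check57856 : checkRange table 57856 512 = true := by
  decide +kernel

theorem check58368 : checkRange table 58368 512 = true := by
  decide +kernel

theorem check58880 : checkRange table 58880 512 = true := by
  decide +kernel

theorem check59392 : checkRange table 59392 512 = true := by
  decide +kernel

theorem check59904 : checkRange table 59904 512 = true := by
  decide +kernel

theorem check60416 : checkRange table 60416 512 = true := by
  decide +kernel

theorem check60928 : checkRange table 60928 512 = true := by
  decide +kernel

theorem check61440 : checkRange table 61440 512 = true := by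
  decide +kernel

theorem check61952 : checkRange table 61952 512 = true := by
  decide +kernel

theorem check62464 : checkRange table 62464 512 = true := by
  decide +kernel

theorem check62976 : checkRange table 62976 512 = true := by
  decide +kernel

theorem check63488 : checkRange table 63488 512 = true := by
  decide +kernel

theorem check64000 : checkRange table 64000 512 = true := by
  decide +kernel

theorem check64512 : checkRange table 64512 512 = true := by
  decide +kernel

theorem check65024 : checkRange table 65024 512 = true := by
  decide +kernel


end Vale.Agent.P062.Cert
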