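import Vale.Agent.P062.Cert.Table

namespace Vale.Agent.P062.Cert

theorem check65536 : checkRange table 65536 512 = true := by
  decide +kernel

theorem check66048 : checkRange table 66048 512 = true := by
  decide +kernel

theorem check66560 : checkRange table 66560 512 = true := by
  decide +kernel

theorem check67072 : checkRange table 67072 512 = true := by
  decide +kernel

theorem check67584 : checkRange table 67584 512 = true := by
  decide +kernel

theorem check68096 : checkRange table 68096 512 = true := by
  decide +kernel

theorem check68608 : checkRange table 68608 512 = true := by
  decide +kernel

theorem check69120 : checkRange table 69120 512 = true := by
  decide +kernel

theorem check69632 : checkRange table 69632 512 = true := by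
  decide +kernel

theorem check70144 : checkRange table 70144 512 = true := by
  decide +kernel

theorem check70656 : checkRange table 70656 512 = true := by
  decide +kernel

theorem check71168 : checkRange table 71168 512 = true := by
  decide +kernel

theorem check71680 : checkRange table 71680 512 = true := by
  decide +kernel

theorem check72192 : checkRange table 72192 512 = true := by
  decide +kernel

theorem check72704 : checkRange table 72704 512 = true := by
  decide +kernel

theorem check73216 : checkRange table 73216 512 = true := by
  decide +kernel


end Vale.Agent.P062.Cert
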