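import Vale.Agent.P062.Cert.Table

namespace Vale.Agent.P062.Cert

theorem check73728 : checkRange table 73728 512 = true := by
  decide +kernel

theorem check74240 : checkRange table 74240 512 = true := by
  decide +kernel

theorem check74752 : checkRange table 74752 512 = true := by
  decide +kernel

theorem check75264 : checkRange table 75264 512 = true := by
  decide +kernel

theorem check75776 : checkRange table 75776 512 = true := by
  decide +kernel

theorem check76288 : checkRange table 76288 390 = true := by
  decide +kernel


end Vale.Agent.P062.Cert
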