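import Vale.Agent.P062.Cert.Check0
import Vale.Agent.P062.Cert.Check1
import Vale.Agent.P062.Cert.Check2
import Vale.Agent.P062.Cert.Check3
import Vale.Agent.P062.Cert.Check4
import Vale.Agent.P062.Cert.Check5
import Vale.Agent.P062.Cert.Check6
import Vale.Agent.P062.Cert.Check7
import Vale.Agent.P062.Cert.Check8
import Vale.Agent.P062.Cert.Check9
import Vale.Agent.P062.Check
import Vale.Agent.P062.Strategy

namespace Vale.Agent.P062.Cert

theorem check_nodes : ∀ i < 76678, checkNode table i = true := by
  intro i hi
  rcases Nat.lt_or_ge i 38400 with hlt | hge
  · skip
    rcases Nat.lt_or_ge i 18944 with hlt | hge
    · skip
      rcases Nat.lt_or_ge i 9216 with hlt | hge
      · skip
        rcases Nat.lt_or_ge i 4608 with hlt | hge
        · skip
          rcases Nat.lt_or_ge i 2048 with hlt | hge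
          · skip
            rcases Nat.lt_or_ge i 1024 with hlt | hge
            · skip
              rcases Nat.lt_or_ge i 512 with hlt | hge
              · skip
                exact checkRange_spec check0 i (by omega) (by omega)
              · skip
                exact checkRange_spec check512 i (by omega) (by omega)
            · skip
              rcases Nat.lt_or_ge i 1536 with hlt | hge
              · skip
                exact checkRange_spec check1024 i (by omega) (by omega)
              · skip
                exact checkRange_spec check1536 i (by omega) (by omega)
          · skip
            rcases Nat.lt_or_ge i 3072 with hlt | hge
            · skip
              rcases Nat.lt_or_ge i 2560 with hlt | hge
              · skip
                exact checkRange_spec check2048 i (by omega) (by omega)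
              · skip
                exact checkRange_spec check2560 i (by omega) (by omega)
            · skip
              rcases Nat.lt_or_ge i 3584 with hlt | hge
              · skip
                exact checkRange_spec check3072 i (by omega) (by omega)
              · skip
                rcases Nat.lt_or_ge i 4096 with hlt | hge
                · skip
                  exact checkRange_spec check3584 i (by omega) (by omega)
                · skip
                  exact checkRange_spec check4096 i (by omega) (by omega)
        · skip
          rcases Nat.lt_or_ge i 6656 with hlt | hge
          · skip
            rcases Nat.lt_or_ge i 5632 with hlt | hge
            · skip
              rcases Nat.lt_or_ge i 5120 with hlt | hge
              · skip
                exact checkRange_spec check4608 i (by omega) (by omega)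
              · skip
                exact checkRange_spec check5120 i (by omega) (by omega)
            · skip
              rcases Nat.lt_or_ge i 6144 with hlt | hge
              · skip
                exact checkRange_spec check5632 i (by omega) (by omega)
              · skip
                exact checkRange_spec check6144 i (by omega) (by omega)
          · skip
            rcases Nat.lt_or_ge i 7680 with hlt | hge
            · skip
              rcases Nat.lt_or_ge i 7168 with hlt | hge
              · skip
                exact checkRange_spec check6656 i (by omega) (by omega)
              · skip
                exact checkRange_spec check7168 i (by omega) (by omega)
            · skip
              rcases Nat.lt_or_ge i 8192 with hlt | hge
              · skip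
                exact checkRange_spec check7680 i (by omega) (by omega)
              · skip
                rcases Nat.lt_or_ge i 8704 with hlt | hge
                · skip
                  exact checkRange_spec check8192 i (by omega) (by omega)
                · skip
                  exact checkRange_spec check8704 i (by omega) (by omega)
      · skip
        rcases Nat.lt_or_ge i 13824 with hlt | hge
        · skip
          rcases Nat.lt_or_ge i 11264 with hlt | hge
          · skip
            rcases Nat.lt_or_ge i 10240 with hlt | hge
            · skip
              rcases Nat.lt_or_ge i 9728 with hlt | hge
              · skip
                exact checkRange_spec check9216 i (by omega) (by omega)
              · skip
                exact checkRange_spec check9728 i (by omega) (by omega)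
            · skip
              rcases Nat.lt_or_ge i 10752 with hlt | hge
              · skip
                exact checkRange_spec check10240 i (by omega) (by omega)
              · skip
                exact checkRange_spec check10752 i (by omega) (by omega)
          · skip
            rcases Nat.lt_or_ge i 12288 with hlt | hge
            · skip
              rcases Nat.lt_or_ge i 11776 with hlt | hge
              · skip
                exact checkRange_spec check11264 i (by omega) (by omega)
              · skip
                exact checkRange_spec check11776 i (by omega) (by omega)
            · skip
              rcases Nat.lt_or_ge i 12800 with hlt | hge
              · skip
                exact checkRange_spec check12288 i (by omega) (by omega)
              · skip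
                rcases Nat.lt_or_ge i 13312 with hlt | hge
                · skip
                  exact checkRange_spec check12800 i (by omega) (by omega)
                · skip
                  exact checkRange_spec check13312 i (by omega) (by omega)
        · skip
          rcases Nat.lt_or_ge i 16384 with hlt | hge
          · skip
            rcases Nat.lt_or_ge i 14848 with hlt | hge
            · skip
              rcases Nat.lt_or_ge i 14336 with hlt | hge
              · skip
                exact checkRange_spec check13824 i (by omega) (by omega)
              · skip
                exact checkRange_spec check14336 i (by omega) (by omega)
            · skip
              rcases Nat.lt_or_ge i 15360 with hlt | hge
              · skip
                exact checkRange_spec check14848 i (by omega) (by omega)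
              · skip
                rcases Nat.lt_or_ge i 15872 with hlt | hge
                · skip
                  exact checkRange_spec check15360 i (by omega) (by omega)
                · skip
                  exact checkRange_spec check15872 i (by omega) (by omega)
          · skip
            rcases Nat.lt_or_ge i 17408 with hlt | hge
            · skip
              rcases Nat.lt_or_ge i 16896 with hlt | hge
              · skip
                exact checkRange_spec check16384 i (by omega) (by omega)
              · skip
                exact checkRange_spec check16896 i (by omega) (by omega)
            · skip
              rcases Nat.lt_or_ge i 17920 with hlt | hge
              · skip
                exact checkRange_spec check17408 i (by omega) (by omega)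
              · skip
                rcases Nat.lt_or_ge i 18432 with hlt | hge
                · skip
                  exact checkRange_spec check17920 i (by omega) (by omega)
                · skip
                  exact checkRange_spec check18432 i (by omega) (by omega)
    · skip
      rcases Nat.lt_or_ge i 28672 with hlt | hge
      · skip
        rcases Nat.lt_or_ge i 23552 with hlt | hge
        · skip
          rcases Nat.lt_or_ge i 20992 with hlt | hge
          · skip
            rcases Nat.lt_or_ge i 19968 with hlt | hge
            · skip
              rcases Nat.lt_or_ge i 19456 with hlt | hge
              · skip
                exact checkRange_spec check18944 i (by omega) (by omega)
              · skip
                exact checkRange_spec check19456 i (by omega) (by omega)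
            · skip
              rcases Nat.lt_or_ge i 20480 with hlt | hge
              · skip
                exact checkRange_spec check19968 i (by omega) (by omega)
              · skip
                exact checkRange_spec check20480 i (by omega) (by omega)
          · skip
            rcases Nat.lt_or_ge i 22016 with hlt | hge
            · skip
              rcases Nat.lt_or_ge i 21504 with hlt | hge
              · skip
                exact checkRange_spec check20992 i (by omega) (by omega)
              · skip
                exact checkRange_spec check21504 i (by omega) (by omega)
            · skip
              rcases Nat.lt_or_ge i 22528 with hlt | hge
              · skip
                exact checkRange_spec check22016 i (by omega) (by omega)
              · skip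
                rcases Nat.lt_or_ge i 23040 with hlt | hge
                · skip
                  exact checkRange_spec check22528 i (by omega) (by omega)
                · skip
                  exact checkRange_spec check23040 i (by omega) (by omega)
        · skip
          rcases Nat.lt_or_ge i 26112 with hlt | hge
          · skip
            rcases Nat.lt_or_ge i 24576 with hlt | hge
            · skip
              rcases Nat.lt_or_ge i 24064 with hlt | hge
              · skip
                exact checkRange_spec check23552 i (by omega) (by omega)
              · skip
                exact checkRange_spec check24064 i (by omega) (by omega)
            · skip
              rcases Nat.lt_or_ge i 25088 with hlt | hge
              · skip
                exact checkRange_spec check24576 i (by omega) (by omega)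
              · skip
                rcases Nat.lt_or_ge i 25600 with hlt | hge
                · skip
                  exact checkRange_spec check25088 i (by omega) (by omega)
                · skip
                  exact checkRange_spec check25600 i (by omega) (by omega)
          · skip
            rcases Nat.lt_or_ge i 27136 with hlt | hge
            · skip
              rcases Nat.lt_or_ge i 26624 with hlt | hge
              · skip
                exact checkRange_spec check26112 i (by omega) (by omega)
              · skip
                exact checkRange_spec check26624 i (by omega) (by omega)
            · skip
              rcases Nat.lt_or_ge i 27648 with hlt | hge
              · skip
                exact checkRange_spec check27136 i (by omega) (by omega)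
              · skip
                rcases Nat.lt_or_ge i 28160 with hlt | hge
                · skip
                  exact checkRange_spec check27648 i (by omega) (by omega)
                · skip
                  exact checkRange_spec check28160 i (by omega) (by omega)
      · skip
        rcases Nat.lt_or_ge i 33280 with hlt | hge
        · skip
          rcases Nat.lt_or_ge i 30720 with hlt | hge
          · skip
            rcases Nat.lt_or_ge i 29696 with hlt | hge
            · skip
              rcases Nat.lt_or_ge i 29184 with hlt | hge
              · skip
                exact checkRange_spec check28672 i (by omega) (by omega)
              · skip
                exact checkRange_spec check29184 i (by omega) (by omega)
            · skip
              rcases Nat.lt_or_ge i 30208 with hlt | hge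
              · skip
                exact checkRange_spec check29696 i (by omega) (by omega)
              · skip
                exact checkRange_spec check30208 i (by omega) (by omega)
          · skip
            rcases Nat.lt_or_ge i 31744 with hlt | hge
            · skip
              rcases Nat.lt_or_ge i 31232 with hlt | hge
              · skip
                exact checkRange_spec check30720 i (by omega) (by omega)
              · skip
                exact checkRange_spec check31232 i (by omega) (by omega)
            · skip
              rcases Nat.lt_or_ge i 32256 with hlt | hge
              · skip
                exact checkRange_spec check31744 i (by omega) (by omega)
              · skip
                rcases Nat.lt_or_ge i 32768 with hlt | hge
                · skip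
                  exact checkRange_spec check32256 i (by omega) (by omega)
                · skip
                  exact checkRange_spec check32768 i (by omega) (by omega)
        · skip
          rcases Nat.lt_or_ge i 35840 with hlt | hge
          · skip
            rcases Nat.lt_or_ge i 34304 with hlt | hge
            · skip
              rcases Nat.lt_or_ge i 33792 with hlt | hge
              · skip
                exact checkRange_spec check33280 i (by omega) (by omega)
              · skip
                exact checkRange_spec check33792 i (by omega) (by omega)
            · skip
              rcases Nat.lt_or_ge i 34816 with hlt | hge
              · skip
                exact checkRange_spec check34304 i (by omega) (by omega)
              · skip
                rcases Nat.lt_or_ge i 35328 with hlt | hge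
                · skip
                  exact checkRange_spec check34816 i (by omega) (by omega)
                · skip
                  exact checkRange_spec check35328 i (by omega) (by omega)
          · skip
            rcases Nat.lt_or_ge i 36864 with hlt | hge
            · skip
              rcases Nat.lt_or_ge i 36352 with hlt | hge
              · skip
                exact checkRange_spec check35840 i (by omega) (by omega)
              · skip
                exact checkRange_spec check36352 i (by omega) (by omega)
            · skip
              rcases Nat.lt_or_ge i 37376 with hlt | hge
              · skip
                exact checkRange_spec check36864 i (by omega) (by omega)
              · skip
                rcases Nat.lt_or_ge i 37888 with hlt | hge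
                · skip
                  exact checkRange_spec check37376 i (by omega) (by omega)
                · skip
                  exact checkRange_spec check37888 i (by omega) (by omega)
  · skip
    rcases Nat.lt_or_ge i 57344 with hlt | hge
    · skip
      rcases Nat.lt_or_ge i 47616 with hlt | hge
      · skip
        rcases Nat.lt_or_ge i 43008 with hlt | hge
        · skip
          rcases Nat.lt_or_ge i 40448 with hlt | hge
          · skip
            rcases Nat.lt_or_ge i 39424 with hlt | hge
            · skip
              rcases Nat.lt_or_ge i 38912 with hlt | hge
              · skip
                exact checkRange_spec check38400 i (by omega) (by omega)
              · skip
                exact checkRange_spec check38912 i (by omega) (by omega)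
            · skip
              rcases Nat.lt_or_ge i 39936 with hlt | hge
              · skip
                exact checkRange_spec check39424 i (by omega) (by omega)
              · skip
                exact checkRange_spec check39936 i (by omega) (by omega)
          · skip
            rcases Nat.lt_or_ge i 41472 with hlt | hge
            · skip
              rcases Nat.lt_or_ge i 40960 with hlt | hge
              · skip
                exact checkRange_spec check40448 i (by omega) (by omega)
              · skip
                exact checkRange_spec check40960 i (by omega) (by omega)
            · skip
              rcases Nat.lt_or_ge i 41984 with hlt | hge
              · skip
                exact checkRange_spec check41472 i (by omega) (by omega)
              · skip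
                rcases Nat.lt_or_ge i 42496 with hlt | hge
                · skip
                  exact checkRange_spec check41984 i (by omega) (by omega)
                · skip
                  exact checkRange_spec check42496 i (by omega) (by omega)
        · skip
          rcases Nat.lt_or_ge i 45056 with hlt | hge
          · skip
            rcases Nat.lt_or_ge i 44032 with hlt | hge
            · skip
              rcases Nat.lt_or_ge i 43520 with hlt | hge
              · skip
                exact checkRange_spec check43008 i (by omega) (by omega)
              · skip
                exact checkRange_spec check43520 i (by omega) (by omega)
            · skip
              rcases Nat.lt_or_ge i 44544 with hlt | hge
              · skip
                exact checkRange_spec check44032 i (by omega) (by omega)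
              · skip
                exact checkRange_spec check44544 i (by omega) (by omega)
          · skip
            rcases Nat.lt_or_ge i 46080 with hlt | hge
            · skip
              rcases Nat.lt_or_ge i 45568 with hlt | hge
              · skip
                exact checkRange_spec check45056 i (by omega) (by omega)
              · skip
                exact checkRange_spec check45568 i (by omega) (by omega)
            · skip
              rcases Nat.lt_or_ge i 46592 with hlt | hge
              · skip
                exact checkRange_spec check46080 i (by omega) (by omega)
              · skip
                rcases Nat.lt_or_ge i 47104 with hlt | hge
                · skip
                  exact checkRange_spec check46592 i (by omega) (by omega)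
                · skip
                  exact checkRange_spec check47104 i (by omega) (by omega)
      · skip
        rcases Nat.lt_or_ge i 52224 with hlt | hge
        · skip
          rcases Nat.lt_or_ge i 49664 with hlt | hge
          · skip
            rcases Nat.lt_or_ge i 48640 with hlt | hge
            · skip
              rcases Nat.lt_or_ge i 48128 with hlt | hge
              · skip
                exact checkRange_spec check47616 i (by omega) (by omega)
              · skip
                exact checkRange_spec check48128 i (by omega) (by omega)
            · skip
              rcases Nat.lt_or_ge i 49152 with hlt | hge
              · skip
                exact checkRange_spec check48640 i (by omega) (by omega)
              · skip
                exact checkRange_spec check49152 i (by omega) (by omega)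
          · skip
            rcases Nat.lt_or_ge i 50688 with hlt | hge
            · skip
              rcases Nat.lt_or_ge i 50176 with hlt | hge
              · skip
                exact checkRange_spec check49664 i (by omega) (by omega)
              · skip
                exact checkRange_spec check50176 i (by omega) (by omega)
            · skip
              rcases Nat.lt_or_ge i 51200 with hlt | hge
              · skip
                exact checkRange_spec check50688 i (by omega) (by omega)
              · skip
                rcases Nat.lt_or_ge i 51712 with hlt | hge
                · skip
                  exact checkRange_spec check51200 i (by omega) (by omega)
                · skip
                  exact checkRange_spec check51712 i (by omega) (by omega)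
        · skip
          rcases Nat.lt_or_ge i 54784 with hlt | hge
          · skip
            rcases Nat.lt_or_ge i 53248 with hlt | hge
            · skip
              rcases Nat.lt_or_ge i 52736 with hlt | hge
              · skip
                exact checkRange_spec check52224 i (by omega) (by omega)
              · skip
                exact checkRange_spec check52736 i (by omega) (by omega)
            · skip
              rcases Nat.lt_or_ge i 53760 with hlt | hge
              · skip
                exact checkRange_spec check53248 i (by omega) (by omega)
              · skip
                rcases Nat.lt_or_ge i 54272 with hlt | hge
                · skip
                  exact checkRange_spec check53760 i (by omega) (by omega)
                · skip
                  exact checkRange_spec check54272 i (by omega) (by omega)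
          · skip
            rcases Nat.lt_or_ge i 55808 with hlt | hge
            · skip
              rcases Nat.lt_or_ge i 55296 with hlt | hge
              · skip
                exact checkRange_spec check54784 i (by omega) (by omega)
              · skip
                exact checkRange_spec check55296 i (by omega) (by omega)
            · skip
              rcases Nat.lt_or_ge i 56320 with hlt | hge
              · skip
                exact checkRange_spec check55808 i (by omega) (by omega)
              · skip
                rcases Nat.lt_or_ge i 56832 with hlt | hge
                · skip
                  exact checkRange_spec check56320 i (by omega) (by omega)
                · skip
                  exact checkRange_spec check56832 i (by omega) (by omega)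
    · skip
      rcases Nat.lt_or_ge i 67072 with hlt | hge
      · skip
        rcases Nat.lt_or_ge i 61952 with hlt | hge
        · skip
          rcases Nat.lt_or_ge i 59392 with hlt | hge
          · skip
            rcases Nat.lt_or_ge i 58368 with hlt | hge
            · skip
              rcases Nat.lt_or_ge i 57856 with hlt | hge
              · skip
                exact checkRange_spec check57344 i (by omega) (by omega)
              · skip
                exact checkRange_spec check57856 i (by omega) (by omega)
            · skip
              rcases Nat.lt_or_ge i 58880 with hlt | hge
              · skip
                exact checkRange_spec check58368 i (by omega) (by omega)
              · skip
                exact checkRange_spec check58880 i (by omega) (by omega)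
          · skip
            rcases Nat.lt_or_ge i 60416 with hlt | hge
            · skip
              rcases Nat.lt_or_ge i 59904 with hlt | hge
              · skip
                exact checkRange_spec check59392 i (by omega) (by omega)
              · skip
                exact checkRange_spec check59904 i (by omega) (by omega)
            · skip
              rcases Nat.lt_or_ge i 60928 with hlt | hge
              · skip
                exact checkRange_spec check60416 i (by omega) (by omega)
              · skip
                rcases Nat.lt_or_ge i 61440 with hlt | hge
                · skip
                  exact checkRange_spec check60928 i (by omega) (by omega)
                · skip
                  exact checkRange_spec check61440 i (by omega) (by omega)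
        · skip
          rcases Nat.lt_or_ge i 64512 with hlt | hge
          · skip
            rcases Nat.lt_or_ge i 62976 with hlt | hge
            · skip
              rcases Nat.lt_or_ge i 62464 with hlt | hge
              · skip
                exact checkRange_spec check61952 i (by omega) (by omega)
              · skip
                exact checkRange_spec check62464 i (by omega) (by omega)
            · skip
              rcases Nat.lt_or_ge i 63488 with hlt | hge
              · skip
                exact checkRange_spec check62976 i (by omega) (by omega)
              · skip
                rcases Nat.lt_or_ge i 64000 with hlt | hge
                · skip
                  exact checkRange_spec check63488 i (by omega) (by omega)
                · skip
                  exact checkRange_spec check64000 i (by omega) (by omega)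
          · skip
            rcases Nat.lt_or_ge i 65536 with hlt | hge
            · skip
              rcases Nat.lt_or_ge i 65024 with hlt | hge
              · skip
                exact checkRange_spec check64512 i (by omega) (by omega)
              · skip
                exact checkRange_spec check65024 i (by omega) (by omega)
            · skip
              rcases Nat.lt_or_ge i 66048 with hlt | hge
              · skip
                exact checkRange_spec check65536 i (by omega) (by omega)
              · skip
                rcases Nat.lt_or_ge i 66560 with hlt | hge
                · skip
                  exact checkRange_spec check66048 i (by omega) (by omega)
                · skip
                  exact checkRange_spec check66560 i (by omega) (by omega)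
      · skip
        rcases Nat.lt_or_ge i 71680 with hlt | hge
        · skip
          rcases Nat.lt_or_ge i 69120 with hlt | hge
          · skip
            rcases Nat.lt_or_ge i 68096 with hlt | hge
            · skip
              rcases Nat.lt_or_ge i 67584 with hlt | hge
              · skip
                exact checkRange_spec check67072 i (by omega) (by omega)
              · skip
                exact checkRange_spec check67584 i (by omega) (by omega)
            · skip
              rcases Nat.lt_or_ge i 68608 with hlt | hge
              · skip
                exact checkRange_spec check68096 i (by omega) (by omega)
              · skip
                exact checkRange_spec check68608 i (by omega) (by omega)
          · skip
            rcases Nat.lt_or_ge i 70144 with hlt | hge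
            · skip
              rcases Nat.lt_or_ge i 69632 with hlt | hge
              · skip
                exact checkRange_spec check69120 i (by omega) (by omega)
              · skip
                exact checkRange_spec check69632 i (by omega) (by omega)
            · skip
              rcases Nat.lt_or_ge i 70656 with hlt | hge
              · skip
                exact checkRange_spec check70144 i (by omega) (by omega)
              · skip
                rcases Nat.lt_or_ge i 71168 with hlt | hge
                · skip
                  exact checkRange_spec check70656 i (by omega) (by omega)
                · skip
                  exact checkRange_spec check71168 i (by omega) (by omega)
        · skip
          rcases Nat.lt_or_ge i 74240 with hlt | hge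
          · skip
            rcases Nat.lt_or_ge i 72704 with hlt | hge
            · skip
              rcases Nat.lt_or_ge i 72192 with hlt | hge
              · skip
                exact checkRange_spec check71680 i (by omega) (by omega)
              · skip
                exact checkRange_spec check72192 i (by omega) (by omega)
            · skip
              rcases Nat.lt_or_ge i 73216 with hlt | hge
              · skip
                exact checkRange_spec check72704 i (by omega) (by omega)
              · skip
                rcases Nat.lt_or_ge i 73728 with hlt | hge
                · skip
                  exact checkRange_spec check73216 i (by omega) (by omega)
                · skip
                  exact checkRange_spec check73728 i (by omega) (by omega)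
          · skip
            rcases Nat.lt_or_ge i 75264 with hlt | hge
            · skip
              rcases Nat.lt_or_ge i 74752 with hlt | hge
              · skip
                exact checkRange_spec check74240 i (by omega) (by omega)
              · skip
                exact checkRange_spec check74752 i (by omega) (by omega)
            · skip
              rcases Nat.lt_or_ge i 75776 with hlt | hge
              · skip
                exact checkRange_spec check75264 i (by omega) (by omega)
              · skip
                rcases Nat.lt_or_ge i 76288 with hlt | hge
                · skip
                  exact checkRange_spec check75776 i (by omega) (by omega)
                · skip
                  exact checkRange_spec check76288 i (by omega) (by omega)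

theorem root_ok : checkRoot table 76678 152 36152 answerList = true := by
  decide +kernel

theorem makerWinsIn_empty : MakerWinsIn (76678 + 1) ∅ ∅ :=
  makerWins_of_check check_nodes root_ok

theorem makerWins : MakerHasWinningStrategy := makerHasWinningStrategy makerWinsIn_empty

end Vale.Agent.P062.Cert
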