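import Vale.Agent.P062.Cert.Data0
import Vale.Agent.P062.Cert.Data1
import Vale.Agent.P062.Cert.Data2
import Vale.Agent.P062.Cert.Data3
import Vale.Agent.P062.Cert.Data4
import Vale.Agent.P062.Cert.Data5
import Vale.Agent.P062.Cert.Data6
import Vale.Agent.P062.Cert.Data7
import Vale.Agent.P062.Cert.Data8
import Vale.Agent.P062.Cert.Data9

/-! The certificate. -/

namespace Vale.Agent.P062.Cert

noncomputable def table : Trie :=
  (.node (.node (.node (.node (.node (.node (.node (.node (.node (.node t0 t256) (.node t512 t768)) (.node (.node t1024 t1280) (.node t1536 t1792))) (.node (.node (.node t2048 t2304) (.node t2560 t2816)) (.node (.node t3072 t3328) (.node t3584 t3840)))) (.node (.node (.node (.node t4096 t4352) (.node t4608 t4864)) (.node (.node t5120 t5376) (.node t5632 t5888))) (.node (.node (.node t6144 t6400) (.node t6656 t6912)) (.node (.node t7168 t7424) (.node t7680 t7936))))) (.node (.node (.node (.node (.node t8192 t8448) (.node t8704 t8960)) (.node (.node t9216 t9472) (.node t9728 t9984))) (.node (.node (.node t10240 t10496) (.node t10752 t11008)) (.node (.node t11264 t11520) (.node t11776 t12032)))) (.node (.node (.node (.node t12288 t12544) (.node t12800 t13056)) (.node (.node t13312 t13568) (.node t13824 t14080))) (.node (.node (.node t14336 t14592)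 (.node t14848 t15104)) (.node (.node t15360 t15616) (.node t15872 t16128)))))) (.node (.node (.node (.node (.node (.node t16384 t16640) (.node t16896 t17152)) (.node (.node t17408 t17664) (.node t17920 t18176))) (.node (.node (.node t18432 t18688) (.node t18944 t19200)) (.node (.node t19456 t19712) (.node t19968 t20224)))) (.node (.node (.node (.node t20480 t20736) (.node t20992 t21248)) (.node (.node t21504 t21760) (.node t22016 t22272))) (.node (.node (.node t22528 t22784) (.node t23040 t23296)) (.node (.node t23552 t23808) (.node t24064 t24320))))) (.node (.node (.node (.node (.node t24576 t24832) (.node t25088 t25344)) (.node (.node t25600 t25856) (.node t26112 t26368))) (.node (.node (.node t26624 t26880) (.node t27136 t27392)) (.node (.node t27648 t27904) (.node t28160 t28416)))) (.node (.node (.node (.node t28672 t28928) (.node t29184 t29440)) (.node (.node t29696 t29952) (.node t30208 t30464))) (.node (.node (.node t30720 t30976) (.node t31232 t31488)) (.node (.node t31744 t32000) (.node t32256 t32512))))))) (.node (.node (.node (.node (.node (.node (.node t32768 t33024) (.node t33280 t33536)) (.node (.node t33792 t34048) (.node t34304 t34560))) (.node (.node (.node t34816 t35072) (.node t35328 t35584)) (.node (.node t35840 t36096) (.node t36352 t36608))))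 (.node (.node (.node (.node t36864 t37120) (.node t37376 t37632)) (.node (.node t37888 t38144) (.node t38400 t38656))) (.node (.node (.node t38912 t39168) (.node t39424 t39680)) (.node (.node t39936 t40192) (.node t40448 t40704))))) (.node (.node (.node (.node (.node t40960 t41216) (.node t41472 t41728)) (.node (.node t41984 t42240) (.node t42496 t42752))) (.node (.node (.node t43008 t43264) (.node t43520 t43776)) (.node (.node t44032 t44288) (.node t44544 t44800)))) (.node (.node (.node (.node t45056 t45312) (.node t45568 t45824)) (.node (.node t46080 t46336) (.node t46592 t46848))) (.node (.node (.node t47104 t47360) (.node t47616 t47872)) (.node (.node t48128 t48384) (.node t48640 t48896)))))) (.node (.node (.node (.node (.node (.node t49152 t49408) (.node t49664 t49920)) (.node (.node t50176 t50432) (.node t50688 t50944))) (.node (.node (.node t51200 t51456) (.node t51712 t51968)) (.node (.node t52224 t52480) (.node t52736 t52992)))) (.node (.node (.node (.node t53248 t53504) (.node t53760 t54016)) (.node (.node t54272 t54528) (.node t54784 t55040))) (.node (.node (.node t55296 t55552) (.node t55808 t56064)) (.node (.node t56320 t56576) (.node t56832 t57088))))) (.node (.node (.node (.node (.node t57344 t57600) (.node t57856 t58112)) (.node (.node t58368 t58624)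 (.node t58880 t59136))) (.node (.node (.node t59392 t59648) (.node t59904 t60160)) (.node (.node t60416 t60672) (.node t60928 t61184)))) (.node (.node (.node (.node t61440 t61696) (.node t61952 t62208)) (.node (.node t62464 t62720) (.node t62976 t63232))) (.node (.node (.node t63488 t63744) (.node t64000 t64256)) (.node (.node t64512 t64768) (.node t65024 t65280)))))))) (.node (.node (.node (.node (.node (.node (.node (.node t65536 t65792) (.node t66048 t66304)) (.node (.node t66560 t66816) (.node t67072 t67328))) (.node (.node (.node t67584 t67840) (.node t68096 t68352)) (.node (.node t68608 t68864) (.node t69120 t69376)))) (.node (.node (.node (.node t69632 t69888) (.node t70144 t70400)) (.node (.node t70656 t70912) (.node t71168 t71424))) (.node (.node (.node t71680 t71936) (.node t72192 t72448)) (.node (.node t72704 t72960) (.node t73216 t73472))))) (.node (.node (.node (.node (.node t73728 t73984) (.node t74240 t74496)) (.node (.node t74752 t75008) (.node t75264 t75520))) (.node (.node (.node t75776 t76032) (.node t76288 t76544)) (.leaf 0))) (.leaf 0))) (.leaf 0)) (.leaf 0))) (.leaf 0))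

def answerList : List Answer := [(33966, false, false, true), (33966, true, false, true), (35109, true, false, false), (35109, false, false, false), (35109, false, false, true), (35109, false, true, false), (35109, false, true, true), (35109, true, false, true), (35109, true, true, false), (35109, true, true, true), (20279, false, false, false), (20279, false, false, true), (20279, false, true, false), (20279, false, true, true), (27453, false, false, false), (27453, false, true, false), (27453, true, false, false), (27453, true, true, false), (30426, false, false, false), (30426, false, false, true), (30426, false, true, false), (30426, false, true, true), (30426, true, false, false), (30426, true, false, true), (30426, true, true, false), (30426, true, true, true), (31609, false, false, false), (31609, false, true, false), (31609, true, false, false), (31609, true, true, false), (32674, false, false, false), (32674, false, true, false), (32674, true, false, false), (32674, true, true, false), (33966, false, false, false), (33966, false, true, false), (33966, false, true, true), (33966, true, false, false), (33966, true, true, false), (33966, true, true, true), (35890, false, false, false), (35890, false, false, true), (35890, false, true, false), (35890, false,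 true, true), (36152, false, false, true), (36152, false, true, false), (36152, false, true, true), (76677, false, false, false), (76677, false, true, false), (76677, true, false, false), (76677, true, true, false)]

end Vale.Agent.P062.Cert
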